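import Vale.Agent.P312.Final

namespace Vale.Agent.Results.P312.TwoFifths

open Vale.Agent.P312

theorem result :
    (∃ δ : ℝ, 0 < δ ∧ ∀ (σ : Type) [Fintype σ] (t : ℕ → ℕ),
      TIME1 (σ := σ) t ⊆ SPACE fun n => (t n : ℝ) ^ (1 / 2 - δ)) ∧
    (∀ e : ℝ, 2 / 5 < e → ∀ (σ : Type) [Fintype σ] (t : ℕ → ℕ),
      TIME1 (σ := σ) t ⊆ SPACE fun n => (t n : ℝ) ^ e) ∧
    (∀ (σ : Type) [Fintype σ] (t : ℕ → ℕ),
      TIME1 (σ := σ) t ⊆ SPACE fun n => (t n : ℝ) ^ (2 / 5 : ℝ) * Real.log (t n) ^ 2) :=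
  ⟨⟨1 / 20, by norm_num, fun _ _ t => time_space_pow t (by norm_num)⟩,
    fun _ he _ _ t => time_space_pow t he, fun _ _ t => time_space t⟩

end Vale.Agent.Results.P312.TwoFifths
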